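import Vale.Agent.P011.D4Y.H862.Bas

/-!
The elements `z(x₀, x; s)`, the long and the short elements.
-/

open Vale.Agent.P011.MPQ Vale.Agent.P011.D4 Vale.Agent.P011.D4.Oct Vale.Agent.P011.D4.H24
open Vale.Agent.P011.D4X

set_option linter.unusedSectionVars false

namespace Vale.Agent.P011.D4Y

section model

variable {k L E : Type} [Field k] [Field L] [Field E] [Algebra k L] [Algebra k E] [Algebra L E]
  [IsScalarTower k L E] {ρ σ ι : E ≃ₐ[k] E} {α : E} {a b c : kˣ} {q : Lˣ} [NeZero (2 : E)]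
  (H : HyI ρ σ ι α a b c q)

include H

/-- The image of `Q₁`. -/
theorem mk4_memI {s s' T T' : E} (h1 : σ s = s') (h2 : T = algebraMap L E (q : L) * σ T')
    (h3 : ι s = ρ (ρ s)) (h4 : ι T' = ρ (ρ T')) :
    ∃ y : Qt (up L a) (q * up L b), psiL α q y = mk4 (up E a) (up E b) α s s' T T' :=
  H.mk4_mem h1 h2 h3 h4

/-- The general form: an element of `ATI` from `X`, `w`, `t`. -/
theorem zE_memI {X w : Qt (up E a) (up E b)} {t : E} (hX : nrd X ≠ 0) (hw : nrd w ≠ 0)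
    (ht : t ≠ 0) (hwρ : qmap ρ w = w) (hwσ : qmap σ w = w) (htσ : σ t = t)
    (hA : ρ (ρ t) * ρ t * nrd w = ρ (nrd X))
    (hB : ρ (ρ t) * nrd X = ρ (nrd X) * t) (hC : ρ t * ρ (ρ (nrd X)) = ρ (nrd X) * t)
    (hXm : mq a b α (algebraMap L E (q : L)) * qmap σ X = X * mq a b α (algebraMap L E (q : L)))
    (hXι : qmap ι X = qmap ρ (qmap ρ X)) (hwι : qmap ι w = w) (htι : ι t = t)
    {κ : Lˣ} (hκ : ρ (nrd X) * ρ (algebraMap L E (κ : L)) = 1) :
    ∃ z : ATI ρ σ ι α a b c q, IsKapI ρ z.1 κ ∧ ∀ y, z.1 y = zFun ρ X w t y := by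
  have hk : IsKapI ρ (zE ρ X w t hX hw ht : OctL E a b c ≃ₗ[E] OctL E a b c) κ := by
    intro x y
    rw [zE_apply, zE_apply, zE_apply, ← zFun_tri H.ρ3 hwρ hA hB hC, smul_smul,
      mul_comm (ρ (algebraMap L E (κ : L))), hκ, one_smul]
  refine ⟨⟨zE ρ X w t hX hw ht, ⟨κ, hk⟩, fun x => ?_, fun x => ?_⟩, hk, fun y => rfl⟩
  · exact zFun_Jq H.hj hwσ htσ hXm x
  · exact zFun_Im H.ι2 H.ρ3 H.ιρ hXι hwι htι x

/-- The adjoint elements which commute with the standard involution. -/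
theorem exists_z (x0 : Qt a b) (x : Qt (up L a) (q * up L b)) (s : kˣ)
    (h : algebraMap k E (nrd x0) * (algebraMap L E (nrd x) * ρ (algebraMap L E (nrd x)) *
      ρ (ρ (algebraMap L E (nrd x)))) = algebraMap k E ((s : k) ^ 2)) :
    ∃ z : ATI ρ σ ι α a b c q, z ∈ stab0I ρ σ ι α a b c q ∧
      (∀ κ : Lˣ, nrd x * κ = 1 → IsKapI ρ z.1 κ) ∧ ∀ y, z.1 y = zFI ρ α q x0 x s y := by
  have hs : (s : k) ≠ 0 := s.ne_zero
  have hS : algebraMap k E (s : k) ≠ 0 := by rwa [Ne, map_eq_zero]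
  have hne : algebraMap k E (nrd x0) * (algebraMap L E (nrd x) * ρ (algebraMap L E (nrd x)) *
      ρ (ρ (algebraMap L E (nrd x)))) ≠ 0 := by
    rw [h, Ne, map_eq_zero]
    exact pow_ne_zero 2 hs
  have hx0 : nrd x0 ≠ 0 := fun h0 => hne (by rw [h0, map_zero, zero_mul])
  have hν : nrd x ≠ 0 := fun h0 => hne (by rw [h0, map_zero, zero_mul, zero_mul, mul_zero])
  have hE := h
  rw [map_pow] at hE
  have hX := H.nrd_psiL x
  have hX0 : nrd (psiL α q x : Qt (up E a) (up E b)) ≠ 0 := by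
    rw [hX, Ne, map_eq_zero]; exact hν
  have hιn := H.ιL (nrd x)
  have hρs : ρ (algebraMap k E (s : k)) = algebraMap k E (s : k) := ρ.commutes _
  have hσs : σ (algebraMap k E (s : k)) = algebraMap k E (s : k) := σ.commutes _
  have hιs : ι (algebraMap k E (s : k)) = algebraMap k E (s : k) := ι.commutes _
  have hσn : σ (algebraMap L E (nrd x)) = algebraMap L E (nrd x) := H.σL _
  obtain ⟨κ, hκ⟩ : ∃ κ : Lˣ, nrd x * (κ : L) = 1 :=
    ⟨(Units.mk0 _ hν)⁻¹, by rw [Units.val_inv_eq_inv_val, Units.val_mk0, mul_inv_cancel₀ hν]⟩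
  have hκ' : ρ (algebraMap L E (nrd x)) * ρ (algebraMap L E (κ : L)) = 1 := by
    rw [← map_mul, ← map_mul, hκ, map_one, map_one]
  set n := algebraMap L E (nrd x) with hn
  have hn0 : n ≠ 0 := by rw [hn, Ne, map_eq_zero]; exact hν
  have hκ0 : ρ n ≠ 0 := fun h0 => hn0 ((map_eq_zero_iff ρ ρ.injective).1 h0)
  have hκ1 : ρ (ρ n) ≠ 0 := fun h0 => hκ0 ((map_eq_zero_iff ρ ρ.injective).1 h0)
  have hιn2 : ι (ρ (ρ n)) = n := by
    rw [← hιn, H.ι2]
  obtain ⟨z, hz1, hz2⟩ := zE_memI (c := c) H (X := psiL α q x) (w := qup E x0)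
    (t := n * ρ (ρ n) / algebraMap k E (s : k)) (κ := κ)
    hX0 (by rw [nrd_qup, Ne, map_eq_zero]; exact hx0)
    (div_ne_zero (mul_ne_zero hn0 hκ1) hS)
    (qmap_qup ρ x0) (qmap_qup σ x0)
    (by simp only [map_div₀, map_mul, H.comm, hσn, hσs])
    (by
      rw [hX, nrd_qup]
      simp only [map_div₀, map_mul, hρs, H.ρ3]
      rw [div_mul_div_comm, div_mul_eq_mul_div, div_eq_iff (mul_ne_zero hS hS)]
      linear_combination ρ n * hE)
    (by
      rw [hX]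
      simp only [map_div₀, map_mul, hρs, H.ρ3]
      ring)
    (by
      rw [hX]
      simp only [map_div₀, map_mul, hρs, H.ρ3]
      ring)
    (H.psiL_comm x) (H.psiL_iota x) (qmap_qup ι x0)
    (by rw [map_div₀, map_mul, hιn, hιn2, hιs, mul_comm]) (by rw [hX]; exact hκ')
  refine ⟨z, fun y => ?_, fun κ' hκ'' => ?_, hz2⟩
  · rw [hz2, hz2]
    apply Oct.ext
    · rfl
    · change _ • (qup E x0 * -y.snd * star (qmap ρ (psiL α q x))) =
        -(_ • (qup E x0 * y.snd * star (qmap ρ (psiL α q x))))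
      rw [mul_neg, neg_mul, smul_neg]
  · have : κ' = κ := by
      apply Units.ext
      exact mul_left_cancel₀ hν (hκ''.trans hκ.symm)
    rw [this]
    exact hz1

omit [NeZero (2 : E)] H in
theorem mem_GTI_of {z : ATI ρ σ ι α a b c q} (h : IsKapI ρ z.1 (1 : Lˣ)) :
    z.1 ∈ GTI ρ σ ι α a b c q :=
  ⟨fun x y => by rw [h x y, Units.val_one, map_one, map_one, one_smul], z.2.2.1, z.2.2.2⟩

omit [NeZero (2 : E)] H in
theorem nrd_one_qI : nrd (1 : Qt (up E a) (up E b)) = 1 := by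
  simp [nrd]

theorem exists_long (x : SL1 a b) : ∃ g ∈ GTI ρ σ ι α a b c q, ∀ y : OctL E a b c,
    g y = ⟨y.fst, qup E ((x : (Qt a b)ˣ) : Qt a b) * y.snd⟩ := by
  have hx : nrd ((x : (Qt a b)ˣ) : Qt a b) = 1 := x.2
  have h1 : nrd (1 : Qt (up E a) (up E b)) = 1 := nrd_one_qI
  obtain ⟨z, hz1, hz2⟩ := zE_memI (c := c) H (X := 1) (w := qup E ((x : (Qt a b)ˣ) : Qt a b))
    (t := 1) (κ := 1) (by rw [h1]; exact one_ne_zero)
    (by rw [nrd_qup, hx, map_one]; exact one_ne_zero) one_ne_zero (qmap_qup ρ _)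
    (qmap_qup σ _) (map_one σ) (by rw [nrd_qup, hx, h1]; simp) (by rw [h1]; simp)
    (by rw [h1]; simp) (by rw [qmap_one, mul_one, one_mul])
    (by rw [qmap_one, qmap_one, qmap_one]) (qmap_qup ι _) (map_one ι) (by rw [h1]; simp)
  refine ⟨z.1, mem_GTI_of hz1, fun y => ?_⟩
  rw [hz2]
  apply Oct.ext
  · rw [fst_zFun, qmap_one, qmap_one, star_one, one_mul, mul_one]
  · rw [snd_zFun, qmap_one, star_one, mul_one, one_smul]

theorem exists_short (x : SL1 (up L a) (q * up L b)) : ∃ g ∈ GTI ρ σ ι α a b c q,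
    ∀ y : OctL E a b c, g y = shortFun ρ (psiL α q ((x : (Qt (up L a) (q * up L b))ˣ) :
      Qt (up L a) (q * up L b))) y := by
  have hx : nrd ((x : (Qt (up L a) (q * up L b))ˣ) : Qt (up L a) (q * up L b)) = 1 := x.2
  have h1 : nrd (1 : Qt (up E a) (up E b)) = 1 := nrd_one_qI
  have h2 := H.nrd_psiL ((x : (Qt (up L a) (q * up L b))ˣ) : Qt (up L a) (q * up L b))
  rw [hx, map_one] at h2
  obtain ⟨z, hz1, hz2⟩ := zE_memI (c := c) H
    (X := psiL α q ((x : (Qt (up L a) (q * up L b))ˣ) : Qt (up L a) (q * up L b))) (w := 1)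
    (t := 1) (κ := 1) (by rw [h2]; exact one_ne_zero)
    (by rw [h1]; exact one_ne_zero) one_ne_zero (qmap_one ρ)
    (qmap_one σ) (map_one σ) (by rw [h1, h2]; simp) (by rw [h2]; simp)
    (by rw [h2]; simp) (H.psiL_comm _) (H.psiL_iota _) (qmap_one ι) (map_one ι)
    (by rw [h2]; simp)
  refine ⟨z.1, mem_GTI_of hz1, fun y => ?_⟩
  rw [hz2]
  apply Oct.ext
  · rfl
  · rw [snd_zFun, one_smul, one_mul]
    rfl

theorem exists_zI (x0 : Qt a b) (x : Qt (up L a) (q * up L b)) (s : kˣ)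
    (h : algebraMap k E (nrd x0) * (algebraMap L E (nrd x) * ρ (algebraMap L E (nrd x)) *
      ρ (ρ (algebraMap L E (nrd x)))) = algebraMap k E ((s : k) ^ 2)) :
    ∃ z : ATI ρ σ ι α a b c q, z ∈ stab0I ρ σ ι α a b c q ∧
      (∀ κ : Lˣ, nrd x * κ = 1 → IsKapI ρ z.1 κ) ∧ ∀ y, z.1 y = zFI ρ α q x0 x s y :=
  exists_z H x0 x s h

theorem exists_longI (x : SL1 a b) : ∃ g ∈ GTI ρ σ ι α a b c q, ∀ y : OctL E a b c,
    g y = ⟨y.fst, qup E ((x : (Qt a b)ˣ) : Qt a b) * y.snd⟩ := exists_long H x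

theorem exists_shortI (x : SL1 (up L a) (q * up L b)) : ∃ g ∈ GTI ρ σ ι α a b c q,
    ∀ y : OctL E a b c, g y = shortFun ρ (psiL α q ((x : (Qt (up L a) (q * up L b))ˣ) :
      Qt (up L a) (q * up L b))) y := exists_short H x

end model

end Vale.Agent.P011.D4Y
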