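import Vale.Agent.P011.D4Y.H63.RamOdd
import Vale.Agent.P011.D4X.H64.KCr

/-!
Block D4Y: the complex conjugation at the places of `E` over a real place of `L`.
-/

open NumberField

namespace Vale.Agent.P011.D4Y

open Vale.Agent.P011.MPQ Vale.Agent.P011.D4 Vale.Agent.P011.D4.Oct Vale.Agent.P011.E6
open Vale.Agent.P011.D4X

section coord

variable {k L E : Type} [Field k] [Field L] [Field E] [Algebra k L] [Algebra k E] [Algebra L E]
  [IsScalarTower k L E] [NeZero (2 : E)] {ρ σ ι : E ≃ₐ[k] E} {α : E} {a b c : kˣ} {q : Lˣ}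
  (H : HyI ρ σ ι α a b c q)

include H

omit [IsScalarTower k L E] in
/-- The elements of `E` in terms of `L`, `δ` and `α`. -/
theorem HyI.coordL {δ : E} {d : kˣ} (hδ : δ * δ = algebraMap k E d) (hρ : ρ δ = δ)
    (hσ : σ δ = δ) (hι : ι δ = -δ) (y : E) : ∃ t0 t1 t2 t3 : L,
    y = algebraMap L E t0 + algebraMap L E t1 * δ +
      (algebraMap L E t2 + algebraMap L E t3 * δ) * α := by
  have h2 : (2 : E) ≠ 0 := NeZero.ne 2
  have hα0 : α ≠ 0 := H.al0
  have hδ0 : δ ≠ 0 := by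
    rintro rfl
    rw [mul_zero] at hδ
    exact (map_ne_zero (algebraMap k E)).2 d.ne_zero hδ.symm
  have key : ∀ z : E, σ z = z → ∃ t0 t1 : L, z = algebraMap L E t0 + algebraMap L E t1 * δ := by
    intro z hz
    have e1 : σ (ρ (ι z)) = ρ (ι z) := by rw [H.comm, H.σι, hz]
    have e2 : ι (ρ (ι z)) = ρ (ρ z) := by rw [H.ιρ, H.ι2]
    obtain ⟨t0, ht0⟩ := H.fixL ((z + ρ (ι z)) / 2) (by
      rw [map_div₀, map_add, hz, e1, map_ofNat]) (by
      rw [map_div₀, map_add, e2, map_div₀, map_add, map_div₀, map_add, H.ρ3, map_ofNat, map_ofNat,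
        map_ofNat, add_comm])
    obtain ⟨t1, ht1⟩ := H.fixL ((z - ρ (ι z)) / (2 * δ)) (by
      rw [map_div₀, map_sub, hz, e1, map_mul, map_ofNat, hσ]) (by
      rw [map_div₀, map_sub, e2, map_div₀, map_sub, map_div₀, map_sub, H.ρ3, map_mul, map_mul,
        map_mul, map_ofNat, map_ofNat, map_ofNat, hρ, hρ, hι]
      field_simp
      ring)
    refine ⟨t0, t1, ?_⟩
    rw [ht0, ht1]
    field_simp
    ring
  obtain ⟨t0, t1, h0⟩ := key ((y + σ y) / 2) (by
    rw [map_div₀, map_add, H.σ2, map_ofNat, add_comm])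
  obtain ⟨t2, t3, h1⟩ := key ((y - σ y) / (2 * α)) (by
    rw [map_div₀, map_sub, H.σ2, map_mul, map_ofNat, H.σα]
    field_simp
    ring)
  refine ⟨t0, t1, t2, t3, ?_⟩
  rw [← h0, ← h1]
  field_simp
  ring

/-- The complex conjugation at the places of `E` over a real place of `L`. -/
theorem HyI.conj_or {w : L →+* ℝ} (hw : w (algebraMap k L a) < 0) {W : E →+* ℂ}
    (hW : ∀ t : L, W (algebraMap L E t) = ((w t : ℝ) : ℂ)) :
    (∀ y, W (σ y) = (starRingEnd ℂ) (W y)) ∨
      ∀ y, W (σ (ρ (ι y))) = (starRingEnd ℂ) (W y) := by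
  obtain ⟨δ, d, hδ, hρ, hσ, hι⟩ := H.exists_delta
  have hα : (starRingEnd ℂ) (W α) = -W α := by
    refine conj_of_sq hw ?_
    rw [← map_mul, H.α2, IsScalarTower.algebraMap_apply k L E, hW]
  have hδW : W δ * W δ = ((w (algebraMap k L d) : ℝ) : ℂ) := by
    rw [← map_mul, hδ, IsScalarTower.algebraMap_apply k L E, hW]
  have hd0 : w (algebraMap k L (d : k)) ≠ 0 :=
    (map_ne_zero w).2 ((map_ne_zero (algebraMap k L)).2 d.ne_zero)
  rcases lt_or_gt_of_ne hd0 with h | h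
  · right
    have hδc : (starRingEnd ℂ) (W δ) = -W δ := conj_of_sq h hδW
    intro y
    obtain ⟨t0, t1, t2, t3, rfl⟩ := H.coordL hδ hρ hσ hι y
    have e : ∀ t : L, σ (ρ (ι (algebraMap L E t))) = algebraMap L E t := fun t => by
      rw [H.ιL, H.ρ3, H.σL]
    simp only [map_add, map_mul, e, hρ, hσ, hι, H.ρα, H.σα, H.ια, map_neg, hW, hα, hδc,
      Complex.conj_ofReal]
  · left
    have hδc : (starRingEnd ℂ) (W δ) = W δ := by
      obtain ⟨r, hr⟩ : ∃ r, r = Real.sqrt (w (algebraMap k L d)) := ⟨_, rfl⟩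
      have hrr : r * r = w (algebraMap k L d) := by rw [hr, Real.mul_self_sqrt h.le]
      have h1 : (W δ - r) * (W δ + r) = 0 := by
        have h2 : ((w (algebraMap k L d) : ℝ) : ℂ) = (r : ℂ) * (r : ℂ) := by
          rw [← hrr, Complex.ofReal_mul]
        linear_combination hδW + h2
      rcases mul_eq_zero.1 h1 with h1 | h1
      · rw [sub_eq_zero.1 h1, Complex.conj_ofReal]
      · rw [eq_neg_of_add_eq_zero_left h1, map_neg, Complex.conj_ofReal]
    intro y
    obtain ⟨t0, t1, t2, t3, rfl⟩ := H.coordL hδ hρ hσ hι y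
    simp only [map_add, map_mul, H.σL, hσ, H.σα, map_neg, hW, hα, hδc, Complex.conj_ofReal]

end coord

end Vale.Agent.P011.D4Y
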