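import Vale.Agent.P011.D4X.H64.KCr

/-!
The signs of the parameters of two models of the same group at a real place where the cubic
extension is not totally real.
-/

open NumberField

namespace Vale.Agent.P011.D4Y.S71

open Vale.Agent.P011.MPQ Vale.Agent.P011.D4 Vale.Agent.P011.D4.Oct Vale.Agent.P011.E6
open Vale.Agent.P011.D4X

section formula

variable {k O : Type} [Field k] [Field O] [Algebra k O] [NeZero (2 : O)] {s : O ≃ₐ[k] O}
  {a b c : kˣ} {α : O}

/-- The value of the second hermitian form. -/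
theorem bil_JqS (hα : α ≠ 0) (hα2 : α * α = algebraMap k O a) (hs : s α = -α) (q q' : O)
    (v : OctL O a b c) : bil v (Jq s α q q' (star v)) =
    (v.fst.re + v.fst.imI * α) * s (v.fst.re - v.fst.imI * α) +
    q * (q * q') * ((v.fst.re - v.fst.imI * α) * s (v.fst.re + v.fst.imI * α)) +
    algebraMap k O b * (q * q' * ((v.fst.imJ + v.fst.imK * α) * s (v.fst.imJ + v.fst.imK * α)) +
      q * ((v.fst.imJ - v.fst.imK * α) * s (v.fst.imJ - v.fst.imK * α))) +
    algebraMap k O c * (q * q' * ((v.snd.re + v.snd.imI * α) * s (v.snd.re + v.snd.imI * α)) +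
      q * ((v.snd.re - v.snd.imI * α) * s (v.snd.re - v.snd.imI * α))) -
    algebraMap k O b * algebraMap k O c *
      (q * ((v.snd.imJ + v.snd.imK * α) * s (v.snd.imJ + v.snd.imK * α)) +
      q * q' * ((v.snd.imJ - v.snd.imK * α) * s (v.snd.imJ - v.snd.imK * α))) := by
  have h2 : (2 : O) ≠ 0 := NeZero.ne 2
  have ha : ((up O a : Oˣ) : O) = α * α := by
    rw [hα2]; rfl
  have hb : algebraMap k O b = ((up O b : Oˣ) : O) := rfl
  have hc : algebraMap k O c = ((up O c : Oˣ) : O) := rfl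
  rw [hb, hc]
  simp only [bil_eq, Jq, mq, map_add, map_sub, map_mul, map_neg, hs, fst_star, snd_star,
    QuaternionAlgebra.re_mul, QuaternionAlgebra.re_neg, QuaternionAlgebra.imI_neg,
    QuaternionAlgebra.imJ_neg, QuaternionAlgebra.imK_neg,
    QuaternionAlgebra.imI_mul, QuaternionAlgebra.imJ_mul, QuaternionAlgebra.imK_mul, re_qmap,
    imI_qmap, imJ_qmap, imK_qmap, QuaternionAlgebra.re_star, QuaternionAlgebra.imI_star,
    QuaternionAlgebra.imJ_star, QuaternionAlgebra.imK_star, ha, zero_mul, add_zero]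
  field_simp
  ring

/-- The second hermitian form takes values in a real line; it is negative on the elements without
component along `e₋`. -/
theorem real_form (hα : α ≠ 0) (hα2 : α * α = algebraMap k O a) (hs : s α = -α)
    (W : O →+* ℂ) (hW : ∀ x, W (s x) = (starRingEnd ℂ) (W x)) {q q' : O}
    (hN : q * q' * s q = 1) {rq' rb rc : ℝ} (hq' : W q' = (rq' : ℂ))
    (hb : W (algebraMap k O b) = (rb : ℂ)) (hc : W (algebraMap k O c) = (rc : ℂ))
    (pq' : 0 < rq') (nb : rb < 0) (nc : rc < 0) (v : OctL O a b c) :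
    ∃ r : ℝ, W (bil v (Jq s α q q' (star v))) = W q * (r : ℂ) ∧
      (v.fst.re - v.fst.imI * α = 0 → r ≤ 0) := by
  obtain ⟨V1, e1⟩ : ∃ n, n = W (v.fst.re + v.fst.imI * α) := ⟨_, rfl⟩
  obtain ⟨V2, e2⟩ : ∃ n, n = W (v.fst.re - v.fst.imI * α) := ⟨_, rfl⟩
  obtain ⟨n3, e3⟩ : ∃ n, n = Complex.normSq (W (v.fst.imJ + v.fst.imK * α)) := ⟨_, rfl⟩
  obtain ⟨n4, e4⟩ : ∃ n, n = Complex.normSq (W (v.fst.imJ - v.fst.imK * α)) := ⟨_, rfl⟩
  obtain ⟨n5, e5⟩ : ∃ n, n = Complex.normSq (W (v.snd.re + v.snd.imI * α)) := ⟨_, rfl⟩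
  obtain ⟨n6, e6⟩ : ∃ n, n = Complex.normSq (W (v.snd.re - v.snd.imI * α)) := ⟨_, rfl⟩
  obtain ⟨n7, e7⟩ : ∃ n, n = Complex.normSq (W (v.snd.imJ + v.snd.imK * α)) := ⟨_, rfl⟩
  obtain ⟨n8, e8⟩ : ∃ n, n = Complex.normSq (W (v.snd.imJ - v.snd.imK * α)) := ⟨_, rfl⟩
  have g3 : 0 ≤ n3 := by rw [e3]; exact Complex.normSq_nonneg _
  have g4 : 0 ≤ n4 := by rw [e4]; exact Complex.normSq_nonneg _
  have g5 : 0 ≤ n5 := by rw [e5]; exact Complex.normSq_nonneg _
  have g6 : 0 ≤ n6 := by rw [e6]; exact Complex.normSq_nonneg _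
  have g7 : 0 ≤ n7 := by rw [e7]; exact Complex.normSq_nonneg _
  have g8 : 0 ≤ n8 := by rw [e8]; exact Complex.normSq_nonneg _
  have hNW : W q * (rq' : ℂ) * (starRingEnd ℂ) (W q) = 1 := by
    rw [← hq', ← hW, ← map_mul, ← map_mul, hN, map_one]
  have hz : W q ≠ 0 := by
    intro h0
    rw [h0, zero_mul, zero_mul] at hNW
    exact zero_ne_one hNW
  obtain ⟨X, hX⟩ : ∃ X : ℂ, X * W q = V1 * (starRingEnd ℂ) V2 :=
    ⟨V1 * (starRingEnd ℂ) V2 / W q, div_mul_cancel₀ _ hz⟩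
  have hX' : (starRingEnd ℂ) X * (starRingEnd ℂ) (W q) = (starRingEnd ℂ) V1 * V2 := by
    rw [← map_mul, hX, map_mul, Complex.conj_conj]
  have hre : ((2 * X.re : ℝ) : ℂ) = X + (starRingEnd ℂ) X := (Complex.add_conj X).symm
  refine ⟨2 * X.re + (rb * (rq' * n3 + n4) + rc * (rq' * n5 + n6) -
    rb * rc * (n7 + rq' * n8)), ?_, ?_⟩
  · rw [bil_JqS hα hα2 hs]
    obtain ⟨N3, E3⟩ : ∃ N, N = (v.fst.imJ + v.fst.imK * α) * s (v.fst.imJ + v.fst.imK * α) := ⟨_, rfl⟩
    obtain ⟨N4, E4⟩ : ∃ N, N = (v.fst.imJ - v.fst.imK * α) * s (v.fst.imJ - v.fst.imK * α) := ⟨_, rfl⟩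
    obtain ⟨N5, E5⟩ : ∃ N, N = (v.snd.re + v.snd.imI * α) * s (v.snd.re + v.snd.imI * α) := ⟨_, rfl⟩
    obtain ⟨N6, E6⟩ : ∃ N, N = (v.snd.re - v.snd.imI * α) * s (v.snd.re - v.snd.imI * α) := ⟨_, rfl⟩
    obtain ⟨N7, E7⟩ : ∃ N, N = (v.snd.imJ + v.snd.imK * α) * s (v.snd.imJ + v.snd.imK * α) := ⟨_, rfl⟩
    obtain ⟨N8, E8⟩ : ∃ N, N = (v.snd.imJ - v.snd.imK * α) * s (v.snd.imJ - v.snd.imK * α) := ⟨_, rfl⟩
    have K3 : W N3 = ((n3 : ℝ) : ℂ) := by rw [E3, mul_conj W hW, ← e3]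
    have K4 : W N4 = ((n4 : ℝ) : ℂ) := by rw [E4, mul_conj W hW, ← e4]
    have K5 : W N5 = ((n5 : ℝ) : ℂ) := by rw [E5, mul_conj W hW, ← e5]
    have K6 : W N6 = ((n6 : ℝ) : ℂ) := by rw [E6, mul_conj W hW, ← e6]
    have K7 : W N7 = ((n7 : ℝ) : ℂ) := by rw [E7, mul_conj W hW, ← e7]
    have K8 : W N8 = ((n8 : ℝ) : ℂ) := by rw [E8, mul_conj W hW, ← e8]
    obtain ⟨M1, F1⟩ : ∃ N, N = v.fst.re + v.fst.imI * α := ⟨_, rfl⟩
    obtain ⟨M2, F2⟩ : ∃ N, N = v.fst.re - v.fst.imI * α := ⟨_, rfl⟩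
    rw [← F1] at e1
    rw [← F2] at e2
    rw [← E3, ← E4, ← E5, ← E6, ← E7, ← E8, ← F1, ← F2]
    simp only [map_add, map_sub, map_mul, hW, hq', hb, hc, K3, K4, K5, K6, K7, K8, ← e1, ← e2]
    rw [Complex.ofReal_add, hre]
    push_cast
    linear_combination (-1 : ℂ) * hX - W q * W q * (rq' : ℂ) * hX' +
      (W q * (starRingEnd ℂ) X) * hNW
  · intro h0
    rw [← map_eq_zero W, ← e2] at h0
    have hX0 : X = 0 := by
      rw [h0, map_zero, mul_zero] at hX
      exact (mul_eq_zero.1 hX).resolve_right hz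
    rw [hX0, Complex.zero_re, mul_zero, zero_add]
    have hnb : 0 < -rb := neg_pos.2 nb
    have hnc : 0 < -rc := neg_pos.2 nc
    have t3 : 0 ≤ (-rb) * (rq' * n3 + n4) := by positivity
    have t5 : 0 ≤ (-rc) * (rq' * n5 + n6) := by positivity
    have t7 : 0 ≤ (-rb) * (-rc) * (n7 + rq' * n8) := by positivity
    linarith

/-- The elements orthogonal to the plane. -/
def Yv (a b c : kˣ) (α : O) (x : Fin 6 → O) : OctL O a b c :=
  ⟨⟨0, 0, (x 0 + x 1) / 2, (x 0 - x 1) / (2 * α)⟩,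
    ⟨(x 2 + x 3) / 2, (x 2 - x 3) / (2 * α), (x 4 + x 5) / 2, (x 4 - x 5) / (2 * α)⟩⟩

omit [NeZero (2 : O)] in
theorem Yv_lin (r t : O) (x y : Fin 6 → O) :
    Yv a b c α (fun i => r * x i + t * y i) = r • Yv a b c α x + t • Yv a b c α y := by
  apply ext8
  · change (0 : O) = r * 0 + t * 0
    ring
  · change (0 : O) = r * 0 + t * 0
    ring
  · change (r * x 0 + t * y 0 + (r * x 1 + t * y 1)) / 2 =
      r * ((x 0 + x 1) / 2) + t * ((y 0 + y 1) / 2)
    ring
  · change (r * x 0 + t * y 0 - (r * x 1 + t * y 1)) / (2 * α) =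
      r * ((x 0 - x 1) / (2 * α)) + t * ((y 0 - y 1) / (2 * α))
    ring
  · change (r * x 2 + t * y 2 + (r * x 3 + t * y 3)) / 2 =
      r * ((x 2 + x 3) / 2) + t * ((y 2 + y 3) / 2)
    ring
  · change (r * x 2 + t * y 2 - (r * x 3 + t * y 3)) / (2 * α) =
      r * ((x 2 - x 3) / (2 * α)) + t * ((y 2 - y 3) / (2 * α))
    ring
  · change (r * x 4 + t * y 4 + (r * x 5 + t * y 5)) / 2 =
      r * ((x 4 + x 5) / 2) + t * ((y 4 + y 5) / 2)
    ring
  · change (r * x 4 + t * y 4 - (r * x 5 + t * y 5)) / (2 * α) =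
      r * ((x 4 - x 5) / (2 * α)) + t * ((y 4 - y 5) / (2 * α))
    ring

/-- The values of the second form on these elements. -/
theorem form_Yv (hα : α ≠ 0) (hα2 : α * α = algebraMap k O a) (hs : s α = -α)
    (W : O →+* ℂ) (hW : ∀ x, W (s x) = (starRingEnd ℂ) (W x)) {q q' : O} {rq' rb rc : ℝ}
    (hq' : W q' = (rq' : ℂ))
    (hb : W (algebraMap k O b) = (rb : ℂ)) (hc : W (algebraMap k O c) = (rc : ℂ))
    (x : Fin 6 → O) :
    W (bil (Yv a b c α x) (Jq s α q q' (star (Yv a b c α x)))) = W q * ((∑ i,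
      (![rb * rq', rb, rc * rq', rc, -(rb * rc), -(rb * rc * rq')] : Fin 6 → ℝ) i *
        Complex.normSq (W (x i)) : ℝ) : ℂ) := by
  have h2 : (2 : O) ≠ 0 := NeZero.ne 2
  have hp : ∀ y z : O, (y + z) / 2 + (y - z) / (2 * α) * α = y := by
    intro y z
    field_simp
    ring
  have hm : ∀ y z : O, (y + z) / 2 - (y - z) / (2 * α) * α = z := by
    intro y z
    field_simp
    ring
  rw [bil_JqS hα hα2 hs]
  change W (((0 : O) + 0 * α) * s (0 - 0 * α) + q * (q * q') * ((0 - 0 * α) * s (0 + 0 * α)) +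
    algebraMap k O b * (q * q' * (((x 0 + x 1) / 2 + (x 0 - x 1) / (2 * α) * α) *
      s ((x 0 + x 1) / 2 + (x 0 - x 1) / (2 * α) * α)) +
      q * (((x 0 + x 1) / 2 - (x 0 - x 1) / (2 * α) * α) *
        s ((x 0 + x 1) / 2 - (x 0 - x 1) / (2 * α) * α))) +
    algebraMap k O c * (q * q' * (((x 2 + x 3) / 2 + (x 2 - x 3) / (2 * α) * α) *
      s ((x 2 + x 3) / 2 + (x 2 - x 3) / (2 * α) * α)) +
      q * (((x 2 + x 3) / 2 - (x 2 - x 3) / (2 * α) * α) *
        s ((x 2 + x 3) / 2 - (x 2 - x 3) / (2 * α) * α))) -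
    algebraMap k O b * algebraMap k O c *
      (q * (((x 4 + x 5) / 2 + (x 4 - x 5) / (2 * α) * α) *
        s ((x 4 + x 5) / 2 + (x 4 - x 5) / (2 * α) * α)) +
      q * q' * (((x 4 + x 5) / 2 - (x 4 - x 5) / (2 * α) * α) *
        s ((x 4 + x 5) / 2 - (x 4 - x 5) / (2 * α) * α)))) = _
  simp only [hp, hm]
  have K : ∀ i, W (x i * s (x i)) = ((Complex.normSq (W (x i)) : ℝ) : ℂ) := fun i =>
    mul_conj W hW (x i)
  simp only [map_add, map_sub, map_mul, hW, Complex.mul_conj, hq', hb, hc, map_zero, zero_mul,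
    add_zero, zero_add, sub_zero, mul_zero, Fin.sum_univ_six]
  simp
  ring

end formula

section core

variable {k O : Type} [Field k] [Field O] [Algebra k O] [NeZero (2 : O)] {s : O ≃ₐ[k] O}
  {a b c a1 b1 c1 : kˣ} {α β q q' q1 q1' : O}

/-- The signs of the new parameters at a place where the cubic field has a complex place. -/
theorem core71 (hα : α ≠ 0) (hα2 : α * α = algebraMap k O a) (hsα : s α = -α)
    (hβ : β ≠ 0) (hβ2 : β * β = algebraMap k O a1) (hsβ : s β = -β)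
    (hN : q * q' * s q = 1) (hq1 : q1 ≠ 0) (hq1' : q1' ≠ 0)
    (u : OctL O a1 b1 c1 ≃ₗ[O] OctL O a b c) {l : O} (hl : l ≠ 0)
    (key : ∀ y, bil (u y) (Jq s α q q' (star (u y))) = l * bil y (Jq s β q1 q1' (star y)))
    (W : O →+* ℂ) (hW : ∀ x, W (s x) = (starRingEnd ℂ) (W x))
    {rq' rb rc r1' rb1 rc1 : ℝ}
    (wq' : W q' = (rq' : ℂ)) (wb : W (algebraMap k O b) = (rb : ℂ))
    (wc : W (algebraMap k O c) = (rc : ℂ)) (pq' : 0 < rq') (nb : rb < 0)
    (nc : rc < 0) (w1' : W q1' = (r1' : ℂ))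
    (wb1 : W (algebraMap k O b1) = (rb1 : ℂ)) (wc1 : W (algebraMap k O c1) = (rc1 : ℂ)) :
    0 < r1' ∧ rb1 < 0 ∧ rc1 < 0 := by
  set A : Fin 6 → ℝ := ![rb1 * r1', rb1, rc1 * r1', rc1, -(rb1 * rc1), -(rb1 * rc1 * r1')] with hA
  have hform := form_Yv (b := b1) (c := c1) hβ hβ2 hsβ W hW w1' wb1 wc1 (q := q1)
  rw [← hA] at hform
  have hz1 : W q1 ≠ 0 := (map_ne_zero W).2 hq1
  have hzl : W l ≠ 0 := (map_ne_zero W).2 hl
  have hr1 : r1' ≠ 0 := by
    intro h0
    rw [h0, Complex.ofReal_zero, map_eq_zero] at w1'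
    exact hq1' w1'
  have hrb : rb1 ≠ 0 := by
    intro h0
    rw [h0, Complex.ofReal_zero, map_eq_zero, map_eq_zero] at wb1
    exact b1.ne_zero wb1
  have hrc : rc1 ≠ 0 := by
    intro h0
    rw [h0, Complex.ofReal_zero, map_eq_zero, map_eq_zero] at wc1
    exact c1.ne_zero wc1
  have hz : W q ≠ 0 := by
    intro h0
    rw [map_eq_zero] at h0
    rw [h0, zero_mul, zero_mul] at hN
    exact zero_ne_one hN
  -- the real factor
  obtain ⟨μ, hμ⟩ : ∃ μ : ℝ, W l * W q1 = W q * (μ : ℂ) := by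
    obtain ⟨r, hr, -⟩ := real_form hα hα2 hsα W hW hN wq' wb wc pq' nb nc
      (u (Yv a1 b1 c1 β (Pi.single 1 1)))
    rw [key, map_mul, hform] at hr
    have hs : (∑ i, A i * Complex.normSq (W ((Pi.single 1 1 : Fin 6 → O) i))) = rb1 := by
      rw [Fintype.sum_eq_single 1]
      · simp [hA]
      · intro i hi
        rw [Pi.single_eq_of_ne hi]
        simp
    rw [hs] at hr
    refine ⟨r / rb1, ?_⟩
    rw [Complex.ofReal_div]
    have hrb' : (rb1 : ℂ) ≠ 0 := Complex.ofReal_ne_zero.2 hrb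
    field_simp
    linear_combination hr
  have hμ0 : μ ≠ 0 := by
    intro h0
    rw [h0, Complex.ofReal_zero, mul_zero] at hμ
    exact mul_ne_zero hzl hz1 hμ
  have neg : ∀ x : Fin 6 → O, (u (Yv a1 b1 c1 β x)).fst.re - (u (Yv a1 b1 c1 β x)).fst.imI * α = 0 →
      μ * (∑ i, A i * Complex.normSq (W (x i))) ≤ 0 := by
    intro x hx
    obtain ⟨r, hr, hr'⟩ := real_form hα hα2 hsα W hW hN wq' wb wc pq' nb nc
      (u (Yv a1 b1 c1 β x))
    have h1 := hr' hx
    rw [key, map_mul, hform, ← mul_assoc, hμ, mul_assoc] at hr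
    have h3 := mul_left_cancel₀ hz hr
    have h4 : μ * (∑ i, A i * Complex.normSq (W (x i))) = r := by
      exact_mod_cast h3
    rw [h4]
    exact h1
  -- two values cannot be positive
  have pair : ∀ i j : Fin 6, i ≠ j → 0 < μ * A i → 0 < μ * A j → False := by
    intro i j hij hi hj
    set f : Fin 6 → OctL O a b c := fun l => u (Yv a1 b1 c1 β (Pi.single l 1)) with hf
    set P : OctL O a b c → O := fun v => v.fst.re - v.fst.imI * α with hP
    have hPlin : ∀ r t : O, P (u (Yv a1 b1 c1 β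
        (fun n => r * (Pi.single i 1 : Fin 6 → O) n + t * (Pi.single j 1 : Fin 6 → O) n))) =
        r * P (f i) + t * P (f j) := by
      intro r t
      rw [Yv_lin, map_add, map_smul, map_smul]
      change (r * (f i).fst.re + t * (f j).fst.re) - (r * (f i).fst.imI + t * (f j).fst.imI) * α =
        r * ((f i).fst.re - (f i).fst.imI * α) + t * ((f j).fst.re - (f j).fst.imI * α)
      ring
    have hsum : ∀ r t : O, (∑ n, A n * Complex.normSq (W
        (r * (Pi.single i 1 : Fin 6 → O) n + t * (Pi.single j 1 : Fin 6 → O) n))) =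
        A i * Complex.normSq (W r) + A j * Complex.normSq (W t) := by
      intro r t
      rw [Fintype.sum_eq_add i j hij]
      · rw [Pi.single_eq_same, Pi.single_eq_same, Pi.single_eq_of_ne hij,
          Pi.single_eq_of_ne (Ne.symm hij)]
        simp
      · rintro n ⟨h1, h2⟩
        rw [Pi.single_eq_of_ne h1, Pi.single_eq_of_ne h2]
        simp
    by_cases h0 : P (f i) = 0 ∧ P (f j) = 0
    · have h1 := neg _ ((hPlin 1 0).trans (by rw [h0.1, h0.2]; ring))
      rw [hsum, map_one, map_one, map_zero, map_zero] at h1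
      rw [mul_one, mul_zero, add_zero] at h1
      exact absurd hi (not_lt.2 h1)
    · have h1 := neg _ ((hPlin (P (f j)) (-P (f i))).trans (by ring))
      rw [hsum, map_neg, Complex.normSq_neg] at h1
      have n1 : 0 ≤ Complex.normSq (W (P (f j))) := Complex.normSq_nonneg _
      have n2 : 0 ≤ Complex.normSq (W (P (f i))) := Complex.normSq_nonneg _
      have t1 : 0 ≤ μ * A i * Complex.normSq (W (P (f j))) := mul_nonneg hi.le n1
      have t2 : 0 ≤ μ * A j * Complex.normSq (W (P (f i))) := mul_nonneg hj.le n2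
      have z1 : μ * A i * Complex.normSq (W (P (f j))) = 0 := by linarith
      have z2 : μ * A j * Complex.normSq (W (P (f i))) = 0 := by linarith
      apply h0
      constructor
      · have := (mul_eq_zero.1 z2).resolve_left hj.ne'
        rwa [Complex.normSq_eq_zero, map_eq_zero] at this
      · have := (mul_eq_zero.1 z1).resolve_left hi.ne'
        rwa [Complex.normSq_eq_zero, map_eq_zero] at this
  have a0 : A 0 = rb1 * r1' := rfl
  have a1' : A 1 = rb1 := rfl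
  have a2 : A 2 = rc1 * r1' := rfl
  have a3 : A 3 = rc1 := rfl
  have a4 : A 4 = -(rb1 * rc1) := rfl
  have a5 : A 5 = -(rb1 * rc1 * r1') := rfl
  have hB : μ * rb1 ≠ 0 := mul_ne_zero hμ0 hrb
  have hC : μ * rc1 ≠ 0 := mul_ne_zero hμ0 hrc
  have pr : 0 < r1' := by
    by_contra hcon
    have hneg : r1' < 0 := lt_of_le_of_ne (not_lt.1 hcon) hr1
    obtain ⟨i, hi, hi'⟩ : ∃ i : Fin 6, (i = 0 ∨ i = 1) ∧ 0 < μ * A i := by
      rcases lt_or_gt_of_ne hB with h | h
      · refine ⟨0, Or.inl rfl, ?_⟩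
        rw [a0, ← mul_assoc]
        exact mul_pos_of_neg_of_neg h hneg
      · exact ⟨1, Or.inr rfl, by rw [a1']; exact h⟩
    obtain ⟨j, hj, hj'⟩ : ∃ j : Fin 6, (j = 2 ∨ j = 3) ∧ 0 < μ * A j := by
      rcases lt_or_gt_of_ne hC with h | h
      · refine ⟨2, Or.inl rfl, ?_⟩
        rw [a2, ← mul_assoc]
        exact mul_pos_of_neg_of_neg h hneg
      · exact ⟨3, Or.inr rfl, by rw [a3]; exact h⟩
    refine pair i j ?_ hi' hj'
    rcases hi with rfl | rfl <;> rcases hj with rfl | rfl <;> decide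
  have hB' : μ * rb1 < 0 := by
    refine lt_of_le_of_ne (not_lt.1 fun h => pair 0 1 (by decide) ?_ ?_) hB
    · rw [a0, ← mul_assoc]; exact mul_pos h pr
    · rw [a1']; exact h
  have hC' : μ * rc1 < 0 := by
    refine lt_of_le_of_ne (not_lt.1 fun h => pair 2 3 (by decide) ?_ ?_) hC
    · rw [a2, ← mul_assoc]; exact mul_pos h pr
    · rw [a3]; exact h
  have hD' : 0 ≤ μ * (rb1 * rc1) := by
    by_contra hcon
    have h := neg_pos.2 (not_le.1 hcon)
    refine pair 4 5 (by decide) ?_ ?_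
    · rw [a4, mul_neg]; exact h
    · rw [a5, mul_neg, ← mul_assoc μ, ← neg_mul]; exact mul_pos h pr
  have h5 : 0 < μ * rb1 * (μ * rc1) := mul_pos_of_neg_of_neg hB' hC'
  have h6 : 0 < rb1 * rc1 := by
    have h7 : μ * rb1 * (μ * rc1) = μ ^ 2 * (rb1 * rc1) := by ring
    rw [h7] at h5
    exact (mul_pos_iff_of_pos_left (by positivity)).1 h5
  have h8 : 0 < μ := by
    by_contra hcon
    have h9 : μ < 0 := lt_of_le_of_ne (not_lt.1 hcon) hμ0
    exact absurd hD' (not_le.2 (mul_neg_of_neg_of_pos h9 h6))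
  refine ⟨pr, ?_, ?_⟩
  · by_contra hcon
    exact absurd hB' (not_lt.2 (mul_nonneg h8.le (not_lt.1 hcon)))
  · by_contra hcon
    exact absurd hC' (not_lt.2 (mul_nonneg h8.le (not_lt.1 hcon)))

end core

end Vale.Agent.P011.D4Y.S71
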