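import Vale.Agent.P011.D4Y.H553.Tow
import Vale.Agent.P011.D4Y.H657.Conj
import Vale.Agent.P011.D4Y.H68.Nf
import Vale.Agent.P011.D4Y.H657.S71

/-!
Block D4Y: the complex conjugation at the places over a real place of `L`; the signs of the
parameters after the change of the quadratic field.
-/

open NumberField

namespace Vale.Agent.P011.D4Y

open Vale.Agent.P011.MPQ Vale.Agent.P011.D4 Vale.Agent.P011.D4.Oct Vale.Agent.P011.E6
open Vale.Agent.P011.D4X

section main

variable {k L E : Type} [Field k] [Field L] [NumberField L] [Field E] [Algebra k L] [Algebra k E]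
  [Algebra L E] [IsScalarTower k L E] {ρ σ ι : E ≃ₐ[k] E} {α : E} {a b c : kˣ} {q : Lˣ}
  (H : HyI ρ σ ι α a b c q)
  {a1 : kˣ} {E1 O : Type} [Field E1] [Field O] [NumberField O] [Algebra k E1] [Algebra L E1]
  [Algebra k O] [Algebra L O] [Algebra E O] [Algebra E1 O] [IsScalarTower k L O]
  [IsScalarTower L E O] [IsScalarTower L E1 O] [IsScalarTower k E O] [IsScalarTower k E1 O]
  {ρ1 σ1 ι1 : E1 ≃ₐ[k] E1} {α1 : E1} {ρ' σ' τ' ι' : O ≃ₐ[k] O}
  (T : TowI (L := L) ρ σ ι (a1 : k) ρ1 σ1 ι1 α1 ρ' σ' τ' ι')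

include H T

omit [NumberField L] [IsScalarTower L E1 O] [IsScalarTower k E O] in
/-- The complex conjugation at the places of `O` over a real place of `L`. -/
theorem conj_orO {w : L →+* ℝ} (hw : w (algebraMap k L a) < 0)
    (hw1 : w (algebraMap k L a1) < 0) {W : O →+* ℂ}
    (hW : ∀ t : L, W (algebraMap L O t) = ((w t : ℝ) : ℂ)) :
    (∀ x, W (σ' (τ' x)) = (starRingEnd ℂ) (W x)) ∨
      ∀ x, W (σ' (τ' (ρ' (ι' x)))) = (starRingEnd ℂ) (W x) := by
  have h2O : (2 : O) ≠ 0 := two_ne_zero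
  have h2E : NeZero (2 : E) := ⟨fun h => h2O (by
    rw [← map_ofNat (algebraMap E O) 2, h, map_zero])⟩
  obtain ⟨β, hβ⟩ : ∃ β, β = algebraMap E1 O α1 := ⟨_, rfl⟩
  have hββ : β * β = algebraMap k O a1 := by
    rw [hβ, ← map_mul, T.α12, ← IsScalarTower.algebraMap_apply]
  have hβc : (starRingEnd ℂ) (W β) = -W β := by
    refine conj_of_sq hw1 ?_
    rw [← map_mul, hββ, IsScalarTower.algebraMap_apply k L O, hW]
  have hβ0 : β ≠ 0 := by
    rintro h0
    rw [h0, mul_zero] at hββ
    exact (map_ne_zero (algebraMap k O)).mpr a1.ne_zero hββ.symm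
  have hσβ : σ' β = β := by rw [hβ, T.σE1]
  have hτβ : τ' β = -β := by rw [hβ, T.τE1, T.σα1, map_neg]
  have hρβ : ρ' β = β := by rw [hβ, T.ρE1, T.ρα1]
  have hιβ : ι' β = β := by rw [hβ, T.ιE1, T.ια1]
  have hco : ∀ x : O, ∃ y0 y1 : E, x = algebraMap E O y0 + algebraMap E O y1 * β := by
    intro x
    obtain ⟨y0, hy0⟩ := T.fixτ ((x + τ' x) / 2) (by
      rw [map_div₀, map_add, T.τ2, map_ofNat, add_comm])
    obtain ⟨y1, hy1⟩ := T.fixτ ((x - τ' x) / (2 * β)) (by
      rw [map_div₀, map_sub, T.τ2, map_mul, map_ofNat, hτβ, mul_neg, div_neg, ← neg_div,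
        neg_sub])
    refine ⟨y0, y1, ?_⟩
    rw [hy0, hy1]
    field_simp
    ring
  rcases H.conj_or hw (W := W.comp (algebraMap E O)) (fun t => by
    change W (algebraMap E O (algebraMap L E t)) = _
    rw [← IsScalarTower.algebraMap_apply L E O, hW]) with h | h
  · left
    intro x
    obtain ⟨y0, y1, rfl⟩ := hco x
    have hE : ∀ y : E, W (algebraMap E O (σ y)) = (starRingEnd ℂ) (W (algebraMap E O y)) := h
    simp only [map_add, map_mul, T.τE, T.σE, hτβ, hσβ, map_neg, hE, hβc]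
  · right
    intro x
    obtain ⟨y0, y1, rfl⟩ := hco x
    have hE : ∀ y : E, W (algebraMap E O (σ (ρ (ι y)))) =
        (starRingEnd ℂ) (W (algebraMap E O y)) := h
    simp only [map_add, map_mul, T.τE, T.σE, T.ρE, T.ιE, hτβ, hσβ, hρβ, hιβ, map_neg, hE, hβc]

omit [IsScalarTower L E1 O] [IsScalarTower k E O] [NumberField L] in
/-- At the places where `conj_orO` gives the second alternative the elements of norm one of `L`
are positive. -/
theorem pos_of_N3 {w : L →+* ℝ} {W : O →+* ℂ}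
    (hW : ∀ t : L, W (algebraMap L O t) = ((w t : ℝ) : ℂ))
    (hc : ∀ x, W (σ' (τ' (ρ' (ι' x)))) = (starRingEnd ℂ) (W x)) {t : L}
    (hN : H67.N3 ρ' (algebraMap L O t) = 1) : 0 < w t := by
  have hσL : ∀ t : L, σ' (algebraMap L O t) = algebraMap L O t := fun t => by
    rw [IsScalarTower.algebraMap_apply L E O, T.σE, H.σL]
  have hτL : ∀ t : L, τ' (algebraMap L O t) = algebraMap L O t := fun t => by
    rw [IsScalarTower.algebraMap_apply L E O, T.τE]
  have hιL : ∀ t : L, ι' (algebraMap L O t) = ρ' (ρ' (algebraMap L O t)) := fun t => by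
    rw [IsScalarTower.algebraMap_apply L E O, T.ιE, H.ιL, T.ρE, T.ρE]
  have h1 : W (ρ' (ρ' (algebraMap L O t))) = (starRingEnd ℂ) (W (ρ' (algebraMap L O t))) := by
    rw [← hc, T.ιρ, T.ρ3, hιL, T.τρ, T.τρ, hτL, T.σρ, T.σρ, hσL]
  have h2 : ((w t * Complex.normSq (W (ρ' (algebraMap L O t))) : ℝ) : ℂ) = 1 := by
    have h3 := congrArg W hN
    rw [H67.N3, map_mul, map_mul, map_one, h1, hW, mul_assoc, Complex.mul_conj] at h3
    rw [Complex.ofReal_mul]
    exact h3
  have h4 : w t * Complex.normSq (W (ρ' (algebraMap L O t))) = 1 := by exact_mod_cast h2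
  by_contra hcon
  have h5 := mul_nonpos_of_nonpos_of_nonneg (not_lt.1 hcon)
    (Complex.normSq_nonneg (W (ρ' (algebraMap L O t))))
  rw [h4] at h5
  exact absurd h5 (by norm_num)

omit [IsScalarTower L E1 O] in
/-- The new `q` has the signs of the old one. -/
theorem sign_q1I {w : L →+* ℝ} (hw : w (algebraMap k L a) < 0)
    (hw1 : w (algebraMap k L a1) < 0) {q1 : O} (hN : H67.N3 ρ' q1 = 1) {r : L}
    (hr : algebraMap L O r = q1) {lam v : O} (hlam0 : lam ≠ 0) (hv0 : v ≠ 0)
    (hlam : lam * σ' lam = algebraMap L O (q : L)) (hrel : τ' lam * σ' v = lam * v)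
    (hq1v : q1 = v * τ' v) : 0 < w q * w r := by
  have _halg : Algebra.IsAlgebraic L O := Algebra.IsAlgebraic.tower_top (K := ℚ) L
  obtain ⟨W, hW⟩ := H68.exists_lift (E := O) w
  rcases conj_orO H T hw hw1 hW with hc | hc
  · have hτl0 : τ' lam ≠ 0 := (map_ne_zero τ').2 hlam0
    have h1 : algebraMap L O (q : L) * q1 = (lam * v) * σ' (τ' (lam * v)) := by
      have h2 : lam * σ' (τ' v) = τ' lam * τ' v := by
        have h := congrArg τ' hrel
        rw [map_mul, map_mul, T.τ2, ← T.στ] at h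
        exact h
      have h5 : τ' lam * σ' (τ' lam) = lam * σ' lam := by
        rw [hlam, T.στ, ← map_mul, hlam, IsScalarTower.algebraMap_apply L E O, T.τE]
      rw [← hlam, hq1v, map_mul, map_mul]
      apply mul_left_cancel₀ hτl0
      linear_combination (-v * τ' lam * σ' (τ' lam)) * h2 - v * τ' v * τ' lam * h5
    have h4 : W (algebraMap L O (q : L) * q1) = ((w q * w r : ℝ) : ℂ) := by
      rw [map_mul, hW, ← hr, hW]
      push_cast
      rfl
    rw [h1, map_mul, hc, Complex.mul_conj] at h4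
    have h5 : Complex.normSq (W (lam * v)) = w q * w r := by exact_mod_cast h4
    rw [← h5, Complex.normSq_pos]
    exact (map_ne_zero W).2 (mul_ne_zero hlam0 hv0)
  · refine mul_pos (pos_of_N3 H T hW hc ?_) (pos_of_N3 H T hW hc (by rw [hr]; exact hN))
    rw [H67.N3, IsScalarTower.algebraMap_apply L E O, T.ρE, T.ρE, ← map_mul, ← map_mul,
      H.hq, map_one]

/-- **The signs of the new parameters** at the real places of `L` over a compact place. -/
theorem signsL {b1 c1 : kˣ} {q1 : O} (hN : H67.N3 ρ' q1 = 1) (hσq1 : σ' q1 = q1) {r : L}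
    (hr : algebraMap L O r = q1) (u : OctL O a1 b1 c1 ≃ₗ[O] OctL O a b c) {f s t : O}
    (hbil : ∀ x y, bil (u x) (u y) = f * bil x y)
    (hJ : ∀ x, Jq σ' (algebraMap E O α) (algebraMap L O q) (ρ' (algebraMap L O q)) (u x) =
      s • u (omap σ' x))
    (hT : ∀ x, omap τ' (u x) = t • u (Jq τ' (algebraMap E1 O α1) q1 (ρ' q1) x))
    (hI : ∀ x, omap ι' (star (u x)) = u (omap ι' (star x)))
    {w : L →+* ℝ} (hw : w (algebraMap k L a) < 0) (hw1 : w (algebraMap k L a1) < 0)
    (hwb : w (algebraMap k L b) < 0) (hwc : w (algebraMap k L c) < 0)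
    (hwv : ∀ v : L →+* ℝ, v.comp (algebraMap k L) = w.comp (algebraMap k L) → 0 < v (q : L)) :
    w (algebraMap k L b1) < 0 ∧ w (algebraMap k L c1) < 0 ∧ 0 < w r := by
  have h2O : NeZero (2 : O) := ⟨two_ne_zero⟩
  have hwq : 0 < w (q : L) := hwv w rfl
  have hα2 : algebraMap E O α * algebraMap E O α = algebraMap k O a := by
    rw [← map_mul, H.α2, ← IsScalarTower.algebraMap_apply]
  have hα0 : algebraMap E O α ≠ 0 := by
    intro h0
    rw [h0, mul_zero] at hα2
    exact (map_ne_zero (algebraMap k O)).mpr a.ne_zero hα2.symm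
  have hσα : σ' (algebraMap E O α) = -algebraMap E O α := by rw [T.σE, H.σα, map_neg]
  have hτα : τ' (algebraMap E O α) = algebraMap E O α := T.τE α
  have hια : ι' (algebraMap E O α) = algebraMap E O α := by rw [T.ιE, H.ια]
  have hβ2 : algebraMap E1 O α1 * algebraMap E1 O α1 = algebraMap k O a1 := by
    rw [← map_mul, T.α12, ← IsScalarTower.algebraMap_apply]
  have hβ0 : algebraMap E1 O α1 ≠ 0 := by
    intro h0
    rw [h0, mul_zero] at hβ2
    exact (map_ne_zero (algebraMap k O)).mpr a1.ne_zero hβ2.symm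
  have hσβ : σ' (algebraMap E1 O α1) = algebraMap E1 O α1 := T.σE1 α1
  have hτβ : τ' (algebraMap E1 O α1) = -algebraMap E1 O α1 := by rw [T.τE1, T.σα1, map_neg]
  have hιβ : ι' (algebraMap E1 O α1) = algebraMap E1 O α1 := by rw [T.ιE1, T.ια1]
  have hσq1' : σ' (ρ' q1) = ρ' q1 := by rw [T.σρ, hσq1]
  have hσL : ∀ t : L, σ' (algebraMap L O t) = algebraMap L O t := fun t => by
    rw [IsScalarTower.algebraMap_apply L E O, T.σE, H.σL]
  have hτL : ∀ t : L, τ' (algebraMap L O t) = algebraMap L O t := fun t => by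
    rw [IsScalarTower.algebraMap_apply L E O, T.τE]
  have hιL : ∀ t : L, ι' (algebraMap L O t) = ρ' (ρ' (algebraMap L O t)) := fun t => by
    rw [IsScalarTower.algebraMap_apply L E O, T.ιE, H.ιL, T.ρE, T.ρE]
  have hNq : H67.N3 ρ' (algebraMap L O (q : L)) = 1 := by
    rw [H67.N3, IsScalarTower.algebraMap_apply L E O, T.ρE, T.ρE, ← map_mul, ← map_mul,
      H.hq, map_one]
  have _halg : Algebra.IsAlgebraic L O := Algebra.IsAlgebraic.tower_top (K := ℚ) L
  obtain ⟨W0, hW0⟩ := H68.exists_lift (E := O) w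
  have hW0k : ∀ t : k, W0 (algebraMap k O t) = ((w (algebraMap k L t) : ℝ) : ℂ) := fun t => by
    rw [IsScalarTower.algebraMap_apply k L O, hW0]
  rcases conj_orO H T hw hw1 hW0 with hc | hc
  · -- the real place of `L` is one of three
    have key : ∀ V : O →+* ℂ, (∀ x, V (σ' (τ' x)) = (starRingEnd ℂ) (V x)) →
        (∀ t : k, V (algebraMap k O t) = ((w (algebraMap k L t) : ℝ) : ℂ)) →
        0 < (V (ρ' q1)).re ∧ w (algebraMap k L b1) * ((V q1).re * (V (ρ' q1)).re) < 0 ∧
        w (algebraMap k L c1) * ((V q1).re * (V (ρ' q1)).re) < 0 := by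
      intro V hV hVk
      have real_of : ∀ V : O →+* ℂ, (∀ x, V (σ' (τ' x)) = (starRingEnd ℂ) (V x)) →
          ∃ v : L →+* ℝ, ∀ t, V (algebraMap L O t) = ((v t : ℝ) : ℂ) := by
        intro V hV
        have hre : NumberField.ComplexEmbedding.IsReal (V.comp (algebraMap L O)) := by
          rw [NumberField.ComplexEmbedding.isReal_iff]
          ext x
          change (starRingEnd ℂ) (V (algebraMap L O x)) = V (algebraMap L O x)
          rw [← hV, hτL, hσL]
        exact ⟨hre.embedding, fun t => (hre.coe_embedding_apply t).symm⟩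
      have hV' : ∀ x, (V.comp (ρ' : O →+* O)) (σ' (τ' x)) =
          (starRingEnd ℂ) ((V.comp (ρ' : O →+* O)) x) := by
        intro x
        change V (ρ' (σ' (τ' x))) = (starRingEnd ℂ) (V (ρ' x))
        rw [← hV, ← T.σρ, ← T.τρ]
      obtain ⟨v0, hv0⟩ := real_of V hV
      obtain ⟨v1, hv1⟩ := real_of _ hV'
      have hv1' : ∀ t, V (ρ' (algebraMap L O t)) = ((v1 t : ℝ) : ℂ) := hv1
      have hk0 : ∀ t : k, v0 (algebraMap k L t) = w (algebraMap k L t) := by
        intro t
        have h1 := hv0 (algebraMap k L t)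
        rw [← IsScalarTower.algebraMap_apply, hVk] at h1
        exact_mod_cast h1.symm
      have hk1 : ∀ t : k, v1 (algebraMap k L t) = w (algebraMap k L t) := by
        intro t
        have h1 := hv1' (algebraMap k L t)
        rw [← IsScalarTower.algebraMap_apply, AlgEquiv.commutes, hVk] at h1
        exact_mod_cast h1.symm
      have p0 := hwv v0 (RingHom.ext hk0)
      have p1 := hwv v1 (RingHom.ext hk1)
      have e0 : (V q1).re = v0 r := by rw [← hr, hv0, Complex.ofReal_re]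
      have e1 : (V (ρ' q1)).re = v1 r := by rw [← hr, hv1', Complex.ofReal_re]
      rw [e0, e1]
      exact real_core hα0 hα2 hσα hτα hβ0 hβ2 hσβ hτβ hσq1 hσq1' u hbil hJ hT V hV
        (hv0 q) (hv1' q) (hVk b) (hVk c) p0 p1 hwb hwc (by rw [← hr, hv0])
        (by rw [← hr, hv1']) (hVk b1) (hVk c1)
    obtain ⟨k1, k2, k3⟩ := key W0 hc hW0k
    have k4 : 0 < (W0 q1).re := by
      have h := (key ((W0.comp (ρ' : O →+* O)).comp (ρ' : O →+* O)) (by
        intro x
        change W0 (ρ' (ρ' (σ' (τ' x)))) = (starRingEnd ℂ) (W0 (ρ' (ρ' x)))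
        rw [← hc, ← T.σρ, ← T.τρ, ← T.σρ, ← T.τρ]) (by
        intro t
        change W0 (ρ' (ρ' (algebraMap k O t))) = _
        rw [AlgEquiv.commutes, AlgEquiv.commutes, hW0k])).1
      change 0 < (W0 (ρ' (ρ' (ρ' q1)))).re at h
      rwa [T.ρ3] at h
    have k5 : 0 < (W0 q1).re * (W0 (ρ' q1)).re := mul_pos k4 k1
    refine ⟨?_, ?_, ?_⟩
    · by_contra hcon
      exact absurd k2 (not_lt.mpr (mul_nonneg (not_lt.mp hcon) k5.le))
    · by_contra hcon
      exact absurd k3 (not_lt.mpr (mul_nonneg (not_lt.mp hcon) k5.le))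
    · rwa [← hr, hW0, Complex.ofReal_re] at k4
  · -- the real place of `L` is the only one
    obtain ⟨g, hg⟩ : ∃ g : O ≃ₐ[k] O, g = ι'.trans (τ'.trans σ') := ⟨_, rfl⟩
    have hgx : ∀ x, g x = σ' (τ' (ι' x)) := fun x => by rw [hg]; rfl
    obtain ⟨W, hWd⟩ : ∃ W : O →+* ℂ, ∀ x, W x = W0 (ρ' (ρ' x)) :=
      ⟨(W0.comp (ρ' : O →+* O)).comp (ρ' : O →+* O), fun x => rfl⟩
    have hW : ∀ x, W (g x) = (starRingEnd ℂ) (W x) := by
      intro x
      rw [hWd, hWd, hgx, ← hc, T.ιρ, T.ιρ, T.ρ3, T.τρ, T.τρ, T.σρ, T.σρ]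
    have hWk : ∀ t : k, W (algebraMap k O t) = ((w (algebraMap k L t) : ℝ) : ℂ) := fun t => by
      rw [hWd, AlgEquiv.commutes, AlgEquiv.commutes, hW0k]
    have hgα : g (algebraMap E O α) = -algebraMap E O α := by rw [hgx, hια, hτα, hσα]
    have hgβ : g (algebraMap E1 O α1) = -algebraMap E1 O α1 := by
      rw [hgx, hιβ, hτβ, map_neg, hσβ]
    have hgN : algebraMap L O (q : L) * ρ' (algebraMap L O (q : L)) * g (algebraMap L O (q : L)) =
        1 := by
      rw [hgx, hιL, T.τρ, T.τρ, hτL, T.σρ, T.σρ, hσL]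
      exact hNq
    have hq10 : q1 ≠ 0 := by
      rintro rfl
      rw [H67.N3, zero_mul, zero_mul] at hN
      exact zero_ne_one hN
    have key : ∀ y, bil (u y) (Jq g (algebraMap E O α) (algebraMap L O (q : L))
        (ρ' (algebraMap L O (q : L))) (star (u y))) =
        (σ' t * s * f) * bil y (Jq g (algebraMap E1 O α1) q1 (ρ' q1) (star y)) := by
      intro y
      have e1 : Jq g (algebraMap E O α) (algebraMap L O (q : L))
          (ρ' (algebraMap L O (q : L))) (star (u y)) = Jq σ' (algebraMap E O α)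
          (algebraMap L O (q : L)) (ρ' (algebraMap L O (q : L)))
          (omap τ' (omap ι' (star (u y)))) := by
        rw [hg]; rfl
      have e2 : Jq g (algebraMap E1 O α1) q1 (ρ' q1) (star y) =
          Jq (τ'.trans σ') (algebraMap E1 O α1) q1 (ρ' q1) (omap ι' (star y)) := by
        rw [hg]; rfl
      rw [e1, hI, hT, Jq_smul, hJ, bil_smul_right, bil_smul_right, hbil,
        Jq_comp hσβ hσq1 hσq1', e2]
      ring
    have hl : σ' t * s * f ≠ 0 := by
      intro h0
      have h1 := S71.form_Yv hα0 hα2 hgα W hW (q := algebraMap L O (q : L))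
        (q' := ρ' (algebraMap L O (q : L))) (rq' := w q) (by
          rw [hWd, T.ρ3, hW0]) (hWk b) (hWk c) (Pi.single 1 1)
      have h2 := key (u.symm (S71.Yv a b c (algebraMap E O α) (Pi.single 1 1)))
      rw [LinearEquiv.apply_symm_apply, h0, zero_mul] at h2
      rw [h2, map_zero, Fintype.sum_eq_single 1 (by
        intro i hi
        rw [Pi.single_eq_of_ne hi]
        simp)] at h1
      have h3 : W (algebraMap L O (q : L)) ≠ 0 := (map_ne_zero W).2
        ((map_ne_zero (algebraMap L O)).2 q.ne_zero)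
      rcases mul_eq_zero.1 h1.symm with h4 | h4
      · exact h3 h4
      · rw [Complex.ofReal_eq_zero] at h4
        simp only [Pi.single_eq_same, map_one, mul_one] at h4
        exact hwb.ne h4
    obtain ⟨z1, z2, z3⟩ := S71.core71 hα0 hα2 hgα hβ0 hβ2 hgβ hgN hq10 ((map_ne_zero ρ').2 hq10) u hl key W hW
      (rq' := w q) (by rw [hWd, T.ρ3, hW0]) (hWk b) (hWk c) hwq hwb hwc
      (by rw [hWd, T.ρ3, ← hr, hW0]) (hWk b1) (hWk c1)
    exact ⟨z2, z3, z1⟩

end main

end Vale.Agent.P011.D4Y
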