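import Vale.Agent.P011.D4Y.H657.Bas
import Vale.Agent.P011.D4Y.H691.Na
import Vale.Agent.P011.D4X.H657.Tor

/-!
The central torus of the centralisers of the involutions of the standard plane.
-/

open Vale.Agent.P011.MPQ Vale.Agent.P011.D4 Vale.Agent.P011.D4.Oct Vale.Agent.P011.D4.H24
open Vale.Agent.P011.E6 Vale.Agent.P011.D4X

set_option linter.unusedSectionVars false

namespace Vale.Agent.P011.D4Y

section tor

variable {k L E : Type} [Field k] [Field L] [Field E] [Algebra k L] [Algebra k E] [Algebra L E]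
  [IsScalarTower k L E] {ρ σ ι : E ≃ₐ[k] E} {α : E}
  {a b c : kˣ} {q : Lˣ} [NeZero (2 : E)] (H : HyI ρ σ ι α a b c q)

include H

/-- The central torus. -/
theorem exists_tor (x : E) (hx : x ≠ 0) (hx' : ι x = ρ (ρ x)) :
    ∃ (z : ATI ρ σ ι α a b c q) (κ : Lˣ), IsKapI ρ z.1 κ ∧ algebraMap L E (κ : L) = x * σ x ∧
      ∀ {b' c' : kˣ} {j l : Oct a b c} (h : Trip a b' c' gi j l), z ∈ stabI ρ σ ι α q h := by
  have h := H.hj
  have hι1 : ι (ρ x) = ρ x := by rw [H.ιρ, hx', H.ρ3]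
  have hι2 : ι (ρ (ρ x)) = x := by rw [← hx', H.ι2]
  have hσι : ι (σ x) = ρ (ρ (σ x)) := by rw [← H.σι, hx', H.comm, H.comm]
  have hσι1 : ι (ρ (σ x)) = ρ (σ x) := by rw [H.ιρ, hσι, H.ρ3]
  have hσι2 : ι (ρ (ρ (σ x))) = σ x := by rw [← hσι, H.ι2]
  obtain ⟨μ, hμ⟩ := H.fixL (x * σ x) (by rw [map_mul, H.σ2, mul_comm]) (by
    rw [map_mul, hx', hσι, map_mul, map_mul])
  have hσx : σ x ≠ 0 := fun h0 => hx ((map_eq_zero_iff σ σ.injective).1 h0)
  have hρx : ρ x ≠ 0 := fun h0 => hx ((map_eq_zero_iff ρ ρ.injective).1 h0)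
  have hρρx : ρ (ρ x) ≠ 0 := fun h0 => hρx ((map_eq_zero_iff ρ ρ.injective).1 h0)
  have hρσ : ρ (σ x) ≠ 0 := fun h0 => hσx ((map_eq_zero_iff ρ ρ.injective).1 h0)
  have hρρσ : ρ (ρ (σ x)) ≠ 0 := fun h0 => hρσ ((map_eq_zero_iff ρ ρ.injective).1 h0)
  have hμ0 : μ ≠ 0 := by
    rintro rfl
    rw [map_zero] at hμ
    exact mul_ne_zero hx hσx hμ.symm
  let μu : Lˣ := Units.mk0 μ hμ0
  obtain ⟨n, hn⟩ := H.exists_norm μu
  change algebraMap k E (n : k) = algebraMap L E μ * ρ (algebraMap L E μ) *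
    ρ (ρ (algebraMap L E μ)) at hn
  have hn' : algebraMap k E (n : k) = x * σ x * (ρ x * ρ (σ x)) * (ρ (ρ x) * ρ (ρ (σ x))) := by
    rw [hn, hμ]
    simp only [map_mul]
  have c1 : σ (ρ x) = ρ (σ x) := H.comm _
  have c2 : σ (ρ (ρ x)) = ρ (ρ (σ x)) := by rw [H.comm, H.comm]
  have c3 : σ (ρ (σ x)) = ρ x := by rw [H.comm, H.σ2]
  have c4 : σ (ρ (ρ (σ x))) = ρ (ρ x) := by rw [H.comm, H.comm, H.σ2]
  set ξ : E := x / (σ x * (ρ x * ρ (ρ x))) with hξ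
  have hσξ : σ ξ = σ x / (x * (ρ (σ x) * ρ (ρ (σ x)))) := by
    rw [hξ, map_div₀, map_mul, map_mul, c1, c2, H.σ2]
  have hιξ : ι ξ = ρ (ρ ξ) := by
    rw [hξ]
    simp only [map_div₀, map_mul, hx', hσι, hι1, hι2, H.ρ3]
    rw [mul_comm (ρ x) x]
  have hισξ : ι (σ ξ) = ρ (ρ (σ ξ)) := by
    rw [← H.σι, hιξ, H.comm, H.comm]
  set X : Qt (up E a) (up E b) := mk4 (up E a) (up E b) α ξ (σ ξ) 0 0 with hXd
  have hnX : nrd X = 1 / (ρ x * ρ (σ x) * (ρ (ρ x) * ρ (ρ (σ x)))) := by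
    rw [hXd, nrd_mk4 h.al, hσξ, hξ]
    field_simp
    ring
  have hX0 : nrd X ≠ 0 := by
    rw [hnX]
    exact one_div_ne_zero (mul_ne_zero (mul_ne_zero hρx hρσ) (mul_ne_zero hρρx hρρσ))
  have hn1 : ρ (nrd X) = 1 / (ρ (ρ x) * ρ (ρ (σ x)) * (x * σ x)) := by
    rw [hnX]
    simp only [map_div₀, map_mul, map_one, H.ρ3]
  have hn2 : ρ (ρ (nrd X)) = 1 / (x * σ x * (ρ x * ρ (σ x))) := by
    rw [hn1]
    simp only [map_div₀, map_mul, map_one, H.ρ3]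
  have hσX : qmap σ X = X := by
    rw [hXd, qmap_mk4' h.sa, H.σ2, map_zero]
  have hιX : qmap ι X = qmap ρ (qmap ρ X) := by
    rw [hXd, qmap_mk4 H.ια, qmap_mk4 H.ρα, qmap_mk4 H.ρα, hιξ, hισξ, map_zero, map_zero, map_zero]
  have ht0 : (ρ x * ρ (σ x))⁻¹ ≠ 0 := inv_ne_zero (mul_ne_zero hρx hρσ)
  have h1n : nrd (1 : Qt (up E a) (up E b)) = 1 := nrd_one_qI
  obtain ⟨z0, hz1, hz2⟩ := zE_memI (c := c) H (X := X) (w := 1) (t := (ρ x * ρ (σ x))⁻¹)
    (κ := up L n * μu⁻¹)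
    hX0 (by rw [h1n]; exact one_ne_zero) ht0 (qmap_one ρ) (qmap_one σ)
    (by rw [map_inv₀, map_mul, c1, c3, mul_comm])
    (by
      rw [h1n, hn1]
      simp only [map_inv₀, map_mul, H.ρ3]
      field_simp)
    (by
      rw [hn1, hnX]
      simp only [map_inv₀, map_mul, H.ρ3]
      field_simp)
    (by
      rw [hn2, hn1]
      simp only [map_inv₀, map_mul, H.ρ3]
      field_simp)
    (by
      rw [hσX, hXd, mq_eq, diag_mul h.al, diag_mul h.al, mul_comm, mul_comm (1 : E)])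
    hιX (qmap_one ι) (by rw [map_inv₀, map_mul, hι1, hσι1])
    (by
      have e1 : algebraMap L E ((up L n * μu⁻¹ : Lˣ) : L) = algebraMap k E (n : k) * (x * σ x)⁻¹ := by
        rw [Units.val_mul, Units.val_inv_eq_inv_val, map_mul, map_inv₀]
        change algebraMap L E (algebraMap k L (n : k)) * (algebraMap L E μ)⁻¹ = _
        rw [hμ, ← IsScalarTower.algebraMap_apply]
      rw [e1, ← map_mul, hn', hnX]
      have : 1 / (ρ x * ρ (σ x) * (ρ (ρ x) * ρ (ρ (σ x)))) *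
          (x * σ x * (ρ x * ρ (σ x)) * (ρ (ρ x) * ρ (ρ (σ x))) * (x * σ x)⁻¹) = 1 := by
        field_simp
      rw [this, map_one])
  refine ⟨H.scal μu * z0, _, (isKapI_kapI (H.scal μu)).mul hz1, ?_, ?_⟩
  · rw [kapI_scal H hn]
    have e2 : μu ^ 2 * (up L n)⁻¹ * (up L n * μu⁻¹) = μu := by
      rw [sq]
      group
    rw [e2]
    exact hμ
  · intro b' c' j l h'
    change (H.scal μu * z0 : ATI ρ σ ι α a b c q).1 * tQ E h' =
      tQ E h' * (H.scal μu * z0 : ATI ρ σ ι α a b c q).1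
    have key : ∀ y : OctL E a b c, z0.1 y = zs α (ξ * ρ (ρ (σ ξ))) (σ ξ * ρ (ρ ξ))
        (ξ * ρ (ρ ξ)) (σ ξ * ρ (ρ (σ ξ))) y := by
      intro y
      have d1 : (ρ x * ρ (σ x))⁻¹ * ρ (σ ξ) = ξ * ρ (ρ ξ) := by
        rw [hσξ, hξ]
        simp only [map_div₀, map_mul, H.ρ3]
        field_simp
      have d2 : (ρ x * ρ (σ x))⁻¹ * ρ ξ = σ ξ * ρ (ρ (σ ξ)) := by
        rw [hσξ, hξ]
        simp only [map_div₀, map_mul, H.ρ3]
        field_simp
      rw [hz2]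
      have hy : y = ⟨y.fst, y.snd⟩ := rfl
      rw [hy, mk4_surj h.al y.fst, mk4_surj h.al y.snd, zs_mk4 h.al]
      apply Oct.ext
      · rw [fst_zFun, hXd, qmap_mk4 h.ra, qmap_mk4 h.ra, star_mk4, mk4_mul h.al, mk4_mul h.al]
        simp only [map_zero, neg_zero, mul_zero, zero_mul, add_zero, zero_add]
        congr 1
        all_goals ring
      · rw [snd_zFun, hXd, qmap_mk4 h.ra, star_mk4, one_mul, mk4_mul h.al, smul_mk4]
        simp only [map_zero, neg_zero, mul_zero, add_zero, zero_add]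
        rw [← d1, ← d2]
        congr 1
        all_goals ring
    apply LinearEquiv.ext
    intro y
    change (H.scal μu).1 (z0.1 (tQ E h' y)) = tQ E h' ((H.scal μu).1 (z0.1 y))
    rw [H.scal_apply, H.scal_apply, map_smul, key, key]
    congr 1
    exact zs_comm (T := (tQ E h').toLinearMap) (TorQ.tQ_mul h') (TorQ.tQ_one h') (TorQ.tQ_ep h')
      _ _ _ _ y

end tor

end Vale.Agent.P011.D4Y
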