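import Vale.Agent.P011.D4X.H657.Tor
import Vale.Agent.P011.D4Y.H657.Bas

/-!
The calculation on the standard line, over the big field only.
-/

open Vale.Agent.P011.MPQ Vale.Agent.P011.D4 Vale.Agent.P011.D4.Oct Vale.Agent.P011.D4.H24
open Vale.Agent.P011.D4X

namespace Vale.Agent.P011.D4Y

section line

variable {k E : Type} [Field k] [Field E] [Algebra k E] [NeZero (2 : E)] {a b c : kˣ}
  {ρ σ : E ≃ₐ[k] E} {α : E}

/-- The element `X` attached to the point `(s : t)` of the standard line. -/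
def lineX (ρ σ : E ≃ₐ[k] E) (α q : E) (a b : kˣ) (s t : E) : Qt (up E a) (up E b) :=
  mk4 (up E a) (up E b) α (σ (ρ (ρ s))) (ρ (ρ s)) (-ρ (ρ t)) (-(q⁻¹ * σ (ρ (ρ t))))

theorem line_vecI (hα : α * α = algebraMap k E a) (s t : E) :
    (s • (ep α * gl) + t • ((1 - ep α) * (gj * gl)) : OctL E a b c) =
      ⟨0, mk4 (up E a) (up E b) α s 0 t 0⟩ := by
  have h2 : (2 : E) ≠ 0 := NeZero.ne _
  have hj : (⟨0, 0, 1, 0⟩ : Qt (up E a) (up E b)) = mk4 (up E a) (up E b) α 0 0 1 1 := by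
    ext
    · change (0 : E) = (0 + 0) / 2
      simp
    · change (0 : E) = (0 - 0) / (2 * α)
      simp
    · change (1 : E) = (1 + 1) / 2
      field_simp
      norm_num
    · change (0 : E) = (1 - 1) / (2 * α)
      simp
  have hgj : (gj : OctL E a b c) = ⟨mk4 (up E a) (up E b) α 0 0 1 1, 0⟩ := by
    rw [← hj]; rfl
  have hgl : (gl : OctL E a b c) = ⟨0, 1⟩ := rfl
  have hα' : α * α = ((up E a : Eˣ) : E) := hα
  rw [em_mk4, ep_mk4, hgj, hgl]
  apply Oct.ext
  · simp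
  · simp only [snd_add, snd_smul, snd_mul, star_zero, mul_zero, zero_mul, add_zero, one_mul]
    rw [mk4_mul hα', smul_mk4, smul_mk4, add_mk4]
    congr 1
    all_goals ring

theorem line_calc {q q' q'' : E} (hj : HJ a ρ σ α q q' q'') (w : Qt (up E a) (up E b))
    (r s t : E) :
    zFun ρ (lineX ρ σ α q a b s t) w r (ep α : OctL E a b c) =
      (((up E c : Eˣ) : E) * (q * q''))⁻¹ •
        tri ρ (s • (ep α * gl) + t • ((1 - ep α) * (gj * gl)) : OctL E a b c)
          (Jq σ α q q' (s • (ep α * gl) + t • ((1 - ep α) * (gj * gl)))) := by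
  have hc : ((up E c : Eˣ) : E) ≠ 0 := (up E c).ne_zero
  have hq : q ≠ 0 := hj.q_ne
  have hq2 : q'' ≠ 0 := hj.q2_ne
  have hq1 : q' ≠ 0 := hj.q1_ne
  have hρq : ρ q = q' := hj.r0
  have hρq1 : ρ q' = q'' := hj.r1
  have hρq2 : ρ q'' = q := hj.r2
  have hσq : σ q = q := hj.s0
  have hσq1 : σ q' = q' := hj.s1
  have hσq2 : σ q'' = q'' := hj.s2'
  have hρσ : ∀ x, σ (ρ x) = ρ (σ x) := fun x => (hj.rs x).symm
  rw [line_vecI hj.al]
  have hJ : Jq σ α q q' (⟨0, mk4 (up E a) (up E b) α s 0 t 0⟩ : OctL E a b c) =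
      ⟨0, mk4 (up E a) (up E b) α 0 (σ s * (q * q')) 0 (σ t * q)⟩ := by
    apply Oct.ext
    · rw [fst_Jq, qmap_zero, mul_zero, zero_mul]
    · rw [snd_Jq, hj.m0, qmap_mk4' hj.sa, mk4_mul hj.al]
      simp only [map_zero, mul_zero, zero_mul, add_zero, zero_add]
  rw [hJ]
  apply Oct.ext
  · rw [fst_smul, fst_tri]
    change lineX ρ σ α q a b s t * (ep α : OctL E a b c).fst *
      star (qmap ρ (qmap ρ (lineX ρ σ α q a b s t))) = _
    rw [lineX, ep_mk4, qmap_mk4 hj.ra, qmap_mk4 hj.ra, qmap_mk4 hj.ra, qmap_mk4 hj.ra,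
      qmap_mk4 hj.ra, star_zero, qmap_zero, qmap_zero, star_mk4, star_mk4, mk4_mul hj.al,
      mk4_mul hj.al, mk4_mul hj.al, smul_mk4, zero_mul, zero_add, smul_mk4]
    simp only [map_zero, map_neg, map_mul, map_inv₀, neg_zero, mul_zero, zero_mul, add_zero,
      zero_add, mul_one, hj.r3, neg_neg, hρσ, hρq, hρq1, hρq2]
    congr 1
    all_goals
      field_simp
  · rw [snd_smul, snd_tri]
    simp only [star_zero, qmap_zero, mul_zero, add_zero, neg_zero, smul_zero]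
    change _ • (w * (0 : Qt (up E a) (up E b)) * _) = (0 : Qt (up E a) (up E b))
    rw [mul_zero, zero_mul, smul_zero]

end line

end Vale.Agent.P011.D4Y
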